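import Mathlib

/-!
One-sided certificates: subcubes and parity subspaces, exponential tilting.
-/

open Finset

namespace Vale.Agent.P047

/-- The sign of a bit: `true ↦ 1`, `false ↦ -1`. -/
def sgn (b : Bool) : ℝ := if b then 1 else -1

/-- Points of the discrete cube `{-1,1}^n`; the coordinate `x_i` is `sgn (x i)`. -/
abbrev Cube (n : ℕ) := Fin n → Bool

/-- The mean of `f` under the uniform distribution. -/
noncomputable def mean {n : ℕ} (f : Cube n → ℝ) : ℝ := (∑ x, f x) / 2 ^ n

/-- The first level Fourier coefficient `f^({i}) = E[f(X) X_i]`. -/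
noncomputable def coef {n : ℕ} (f : Cube n → ℝ) (i : Fin n) : ℝ :=
  (∑ x, f x * sgn (x i)) / 2 ^ n

/-- A parity certificate: the coordinates in `dep` are determined by the others,
`x_j = sgn (val j) * ∏_{i ∈ par j} x_i` for `j ∈ dep`, where `par j` avoids `dep`. -/
structure Cert (n : ℕ) where
  dep : Finset (Fin n)
  par : Fin n → Finset (Fin n)
  val : Fin n → Bool
  disj : ∀ j ∈ dep, Disjoint (par j) dep

/-- The number of determined coordinates. -/
def Cert.codim {n : ℕ} (A : Cert n) : ℕ := A.dep.card

/-- `x` satisfies the certificate. -/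
def Cert.Holds {n : ℕ} (A : Cert n) (x : Cube n) : Prop :=
  ∀ j ∈ A.dep, sgn (x j) = sgn (A.val j) * ∏ i ∈ A.par j, sgn (x i)

open Classical in
/-- The indicator function of a certificate. -/
noncomputable def Cert.ind {n : ℕ} (A : Cert n) (x : Cube n) : ℝ := if A.Holds x then 1 else 0

/-- A certificate that fixes the values of the coordinates in `dep`: a subcube. -/
def Cert.IsSubcube {n : ℕ} (A : Cert n) : Prop := ∀ j ∈ A.dep, A.par j = ∅

lemma sgn_mul_self (b : Bool) : sgn b * sgn b = 1 := by cases b <;> simp [sgn]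

lemma sgn_sq (b : Bool) : sgn b ^ 2 = 1 := by rw [sq, sgn_mul_self]

lemma sgn_cases (b : Bool) : sgn b = 1 ∨ sgn b = -1 := by cases b <;> simp [sgn]

lemma abs_sgn (b : Bool) : |sgn b| = 1 := by cases b <;> simp [sgn]

lemma prod_sgn_cases {n : ℕ} (T : Finset (Fin n)) (x : Cube n) :
    (∏ i ∈ T, sgn (x i)) = 1 ∨ (∏ i ∈ T, sgn (x i)) = -1 := by
  induction T using Finset.induction_on with
  | empty => simp
  | insert a s ha ih =>
    rw [Finset.prod_insert ha]
    rcases sgn_cases (x a) with h | h <;> rcases ih with h' | h' <;> simp [h, h']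

/-- Flip coordinate `j`. -/
def flip {n : ℕ} (j : Fin n) (x : Cube n) : Cube n := Function.update x j (!(x j))

lemma flip_self {n : ℕ} (j : Fin n) (x : Cube n) : sgn (flip j x j) = - sgn (x j) := by
  unfold flip; simp only [Function.update_self]; cases x j <;> simp [sgn]

lemma flip_ne {n : ℕ} {i j : Fin n} (h : i ≠ j) (x : Cube n) : flip j x i = x i := by
  unfold flip; simp [Function.update_of_ne h]

lemma flip_flip {n : ℕ} (j : Fin n) (x : Cube n) : flip j (flip j x) = x := by
  unfold flip
  funext i
  by_cases h : i = j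
  · subst h; simp
  · simp [Function.update_of_ne h]

/-- the flip as an equivalence -/
def flipEquiv {n : ℕ} (j : Fin n) : Cube n ≃ Cube n where
  toFun := flip j
  invFun := flip j
  left_inv := flip_flip j
  right_inv := flip_flip j

lemma sum_flip {n : ℕ} (j : Fin n) (g : Cube n → ℝ) : ∑ x, g (flip j x) = ∑ x, g x :=
  Equiv.sum_comp (flipEquiv j) g

/-- If flipping `j` negates `g`, the sum of `g` vanishes. -/
lemma sum_eq_zero_of_flip {n : ℕ} (j : Fin n) (g : Cube n → ℝ)
    (h : ∀ x, g (flip j x) = - g x) : ∑ x, g x = 0 := by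
  have h1 := sum_flip j g
  have h2 : ∑ x, g (flip j x) = - ∑ x, g x := by
    rw [← Finset.sum_neg_distrib]; exact Finset.sum_congr rfl (fun x _ => h x)
  linarith

lemma ind_eq_prod {n : ℕ} (A : Cert n) (x : Cube n) :
    A.ind x = ∏ j ∈ A.dep, ((1 + sgn (A.val j) * (∏ i ∈ A.par j, sgn (x i)) * sgn (x j)) / 2) := by
  classical
  unfold Cert.ind
  split_ifs with h
  · symm
    apply Finset.prod_eq_one
    intro j hj
    have h1 := h j hj
    rw [← h1, sgn_mul_self]; norm_num
  · unfold Cert.Holds at h
    push Not at h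
    obtain ⟨j, hj, hne⟩ := h
    symm
    apply Finset.prod_eq_zero hj
    rcases sgn_cases (A.val j) with h1 | h1 <;> rcases prod_sgn_cases (A.par j) x with h2 | h2 <;>
      rcases sgn_cases (x j) with h3 | h3 <;> simp [h1, h2, h3] at hne ⊢

/-- Averaging over the determined coordinates. -/
lemma sum_ind_mul {n : ℕ} (A : Cert n) (G : Cube n → ℝ)
    (hG : ∀ j ∈ A.dep, ∀ x, G (flip j x) = G x) :
    ∑ x, A.ind x * G x = (∑ x, G x) / 2 ^ A.codim := by
  classical
  have key : ∀ R : Finset (Fin n), R ⊆ A.dep →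
      ∑ x, (∏ j ∈ R, ((1 + sgn (A.val j) * (∏ i ∈ A.par j, sgn (x i)) * sgn (x j)) / 2)) * G x =
        (∑ x, G x) / 2 ^ R.card := by
    intro R
    induction R using Finset.induction_on with
    | empty => intro _; simp
    | insert a s ha ih =>
      intro hR
      have has : a ∈ A.dep := hR (Finset.mem_insert_self _ _)
      have hs : s ⊆ A.dep := fun j hj => hR (Finset.mem_insert_of_mem hj)
      have h0 : ∑ x, (sgn (A.val a) * (∏ i ∈ A.par a, sgn (x i)) * sgn (x a)) *
          ((∏ j ∈ s, ((1 + sgn (A.val j) * (∏ i ∈ A.par j, sgn (x i)) * sgn (x j)) / 2)) * G x)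
            = 0 := by
        apply sum_eq_zero_of_flip a
        intro x
        have e1 : ∀ j ∈ A.dep, (∏ i ∈ A.par j, sgn (flip a x i)) = ∏ i ∈ A.par j, sgn (x i) := by
          intro j hj
          apply Finset.prod_congr rfl
          intro i hi
          have hia : i ≠ a := by
            rintro rfl
            exact (Finset.disjoint_left.mp (A.disj j hj) hi) has
          rw [flip_ne hia]
        rw [e1 a has, flip_self, hG a has]
        have e2 : (∏ j ∈ s, ((1 + sgn (A.val j) * (∏ i ∈ A.par j, sgn (flip a x i)) *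
            sgn (flip a x j)) / 2)) =
            ∏ j ∈ s, ((1 + sgn (A.val j) * (∏ i ∈ A.par j, sgn (x i)) * sgn (x j)) / 2) := by
          apply Finset.prod_congr rfl
          intro j hj
          have hja : j ≠ a := by rintro rfl; exact ha hj
          rw [e1 j (hs hj), flip_ne hja]
        rw [e2]; ring
      rw [Finset.card_insert_of_notMem ha, pow_succ]
      have h1 := ih hs
      calc ∑ x, (∏ j ∈ insert a s, ((1 + sgn (A.val j) * (∏ i ∈ A.par j, sgn (x i)) *
              sgn (x j)) / 2)) * G x
          = ∑ x, ((1/2) * ((∏ j ∈ s, ((1 + sgn (A.val j) * (∏ i ∈ A.par j, sgn (x i)) *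
              sgn (x j)) / 2)) * G x) + (1/2) * ((sgn (A.val a) * (∏ i ∈ A.par a, sgn (x i)) *
              sgn (x a)) * ((∏ j ∈ s, ((1 + sgn (A.val j) * (∏ i ∈ A.par j, sgn (x i)) *
              sgn (x j)) / 2)) * G x))) := by
            apply Finset.sum_congr rfl
            intro x _
            rw [Finset.prod_insert ha]; ring
        _ = (1/2) * ((∑ x, G x) / 2 ^ s.card) + (1/2) * 0 := by
            rw [Finset.sum_add_distrib, ← Finset.mul_sum, ← Finset.mul_sum, h1, h0]
        _ = (∑ x, G x) / (2 ^ s.card * 2) := by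
            field_simp
            ring
  have := key A.dep (Finset.Subset.refl _)
  rw [Cert.codim, ← this]
  apply Finset.sum_congr rfl
  intro x _
  rw [ind_eq_prod]

lemma sum_prod_cube {n : ℕ} (g : Fin n → Bool → ℝ) :
    ∑ x : Cube n, ∏ i, g i (x i) = ∏ i, (g i true + g i false) := by
  classical
  have h := Finset.prod_univ_sum (fun _ : Fin n => (Finset.univ : Finset Bool)) g
  rw [Fintype.piFinset_univ] at h
  rw [← h]
  apply Finset.prod_congr rfl
  intro i _
  rw [Fintype.sum_bool]

lemma sum_one_cube (n : ℕ) : ∑ _x : Cube n, (1:ℝ) = 2 ^ n := by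
  simp

/-- mean of the indicator -/
lemma sum_ind {n : ℕ} (A : Cert n) : ∑ x, A.ind x = 2 ^ n / 2 ^ A.codim := by
  have h := sum_ind_mul A (fun _ => 1) (fun _ _ _ => rfl)
  simp only [mul_one] at h
  rw [h]; simp

/-- The forced sign sum of a certificate in direction `e`. -/
noncomputable def Cert.drift {n : ℕ} (A : Cert n) (e : Fin n → ℝ) : ℝ :=
  ∑ j ∈ A.dep, (if A.par j = ∅ then e j * sgn (A.val j) else 0)

lemma sum_prod_sgn {n : ℕ} (T : Finset (Fin n)) :
    ∑ x : Cube n, ∏ i ∈ T, sgn (x i) = if T = ∅ then 2 ^ n else 0 := by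
  split_ifs with h
  · subst h; simp
  · obtain ⟨j, hj⟩ := Finset.nonempty_iff_ne_empty.mpr h
    apply sum_eq_zero_of_flip j
    intro x
    rw [← Finset.mul_prod_erase _ _ hj, ← Finset.mul_prod_erase _ _ hj, flip_self]
    have : ∏ i ∈ T.erase j, sgn (flip j x i) = ∏ i ∈ T.erase j, sgn (x i) := by
      apply Finset.prod_congr rfl
      intro i hi
      rw [flip_ne (Finset.ne_of_mem_erase hi)]
    rw [this]; ring

lemma sum_ind_sgn {n : ℕ} (A : Cert n) (i : Fin n) :
    ∑ x, A.ind x * sgn (x i) =
      if i ∈ A.dep then (if A.par i = ∅ then sgn (A.val i) * 2 ^ n / 2 ^ A.codim else 0) else 0 := by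
  classical
  split_ifs with hi hp
  · -- determined and constant
    have h1 : ∀ x, A.ind x * sgn (x i) = A.ind x * sgn (A.val i) := by
      intro x
      unfold Cert.ind
      split_ifs with h
      · have := h i hi
        rw [hp, Finset.prod_empty, mul_one] at this
        rw [this]
      · simp
    rw [Finset.sum_congr rfl (fun x _ => h1 x), ← Finset.sum_mul, sum_ind]; ring
  · have h1 : ∀ x, A.ind x * sgn (x i) = A.ind x * (sgn (A.val i) * ∏ l ∈ A.par i, sgn (x l)) := by
      intro x
      unfold Cert.ind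
      split_ifs with h
      · rw [h i hi]
      · simp
    rw [Finset.sum_congr rfl (fun x _ => h1 x), sum_ind_mul, ← Finset.mul_sum, sum_prod_sgn, if_neg hp]
    · simp
    · intro j hj x
      congr 1
      apply Finset.prod_congr rfl
      intro l hl
      have : l ≠ j := by rintro rfl; exact (Finset.disjoint_left.mp (A.disj i hi) hl) hj
      rw [flip_ne this]
  · rw [sum_ind_mul]
    · have : ∑ x : Cube n, sgn (x i) = 0 := by
        apply sum_eq_zero_of_flip i
        intro x; rw [flip_self]
      rw [this]; simp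
    · intro j hj x
      have : i ≠ j := by rintro rfl; exact hi hj
      rw [flip_ne this]

lemma sum_coef_ind {n : ℕ} (A : Cert n) (e : Fin n → ℝ) :
    ∑ i, e i * coef A.ind i = A.drift e / 2 ^ A.codim := by
  classical
  unfold coef Cert.drift
  have h : ∀ i, e i * ((∑ x, A.ind x * sgn (x i)) / 2 ^ n) =
      (if i ∈ A.dep then (if A.par i = ∅ then e i * sgn (A.val i) else 0) else 0) /
        2 ^ A.codim := by
    intro i
    rw [sum_ind_sgn]
    split_ifs <;> field_simp <;> ring
  rw [Finset.sum_congr rfl (fun i _ => h i), ← Finset.sum_div]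
  congr 1
  rw [← Finset.sum_filter]
  simp

end Vale.Agent.P047
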