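import Vale.Agent.P047.Tilt

open Finset

namespace Vale.Agent.P047

lemma tiltP_sum {n : ℕ} {ι : Type*} [Fintype ι] (h : ℝ) (e : Fin n → ℝ) (w : ι → ℝ)
    (A : ι → Cert n) (F : Cube n → ℝ) (hF : ∀ x, F x = ∑ j, w j * (A j).ind x) :
    tiltP h e F = ∑ j, w j * tiltP h e (A j).ind := by
  unfold tiltP
  have : ∀ x, F x * ∏ i, tw h (e i) (x i) =
      ∑ j, w j * ((A j).ind x * ∏ i, tw h (e i) (x i)) := by
    intro x; rw [hF x, Finset.sum_mul]; apply Finset.sum_congr rfl; intro j _; ring
  rw [Finset.sum_congr rfl (fun x _ => this x), Finset.sum_comm]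
  apply Finset.sum_congr rfl; intro j _; rw [Finset.mul_sum]

lemma mean_sum {n : ℕ} {ι : Type*} [Fintype ι] (w : ι → ℝ)
    (A : ι → Cert n) (F : Cube n → ℝ) (hF : ∀ x, F x = ∑ j, w j * (A j).ind x) :
    mean F = ∑ j, w j / 2 ^ (A j).codim := by
  unfold mean
  rw [Finset.sum_congr rfl (fun x _ => hF x), Finset.sum_comm, Finset.sum_div]
  apply Finset.sum_congr rfl
  intro j _
  rw [← Finset.mul_sum, sum_ind]
  field_simp

lemma coef_sum {n : ℕ} {ι : Type*} [Fintype ι] (w : ι → ℝ)
    (A : ι → Cert n) (F : Cube n → ℝ) (hF : ∀ x, F x = ∑ j, w j * (A j).ind x)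
    (e : Fin n → ℝ) :
    ∑ i, e i * coef F i = ∑ j, w j * (A j).drift e / 2 ^ (A j).codim := by
  have h1 : ∀ i, coef F i = ∑ j, w j * coef (A j).ind i := by
    intro i
    unfold coef
    have : ∀ x, F x * sgn (x i) = ∑ j, w j * ((A j).ind x * sgn (x i)) := by
      intro x; rw [hF x, Finset.sum_mul]; apply Finset.sum_congr rfl; intro j _; ring
    rw [Finset.sum_congr rfl (fun x _ => this x), Finset.sum_comm, Finset.sum_div]
    apply Finset.sum_congr rfl; intro j _
    rw [← Finset.mul_sum]; ring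
  have h2 : ∑ i, e i * coef F i = ∑ i, ∑ j, w j * (e i * coef (A j).ind i) := by
    apply Finset.sum_congr rfl; intro i _
    rw [h1 i, Finset.mul_sum]; apply Finset.sum_congr rfl; intro j _; ring
  rw [h2, Finset.sum_comm]
  apply Finset.sum_congr rfl; intro j _
  rw [← Finset.mul_sum, sum_coef_ind]; ring

/-- the key inequality at one value of the tilt -/
lemma key_tilt {n k : ℕ} {ι : Type*} [Fintype ι] (c : ℝ) (hc : 0 ≤ c) (h : ℝ) (hh : 0 < h)
    (e : Fin n → ℝ) (he : ∀ i, e i = 1 ∨ e i = -1) (w : ι → ℝ) (hw : ∀ j, 0 ≤ w j)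
    (A : ι → Cert n) (hk : ∀ j, (A j).codim ≤ k) (F : Cube n → ℝ)
    (hF : ∀ x, F x = ∑ j, w j * (A j).ind x) (hF1 : ∀ x, F x ≤ 1)
    (hlow : ∀ j, Real.exp (h * (A j).drift e - c * (A j).codim * h ^ 2) / 2 ^ (A j).codim ≤
      tiltP h e (A j).ind) (hq : 0 < mean F) :
    ∑ i, e i * coef F i ≤ mean F * (c * k * h) + mean F * Real.log (1 / mean F) / h := by
  set q := mean F with hqdef
  set K := ∑ i, e i * coef F i with hK
  have h1 := tiltP_le_one h e he F hF1
  rw [tiltP_sum h e w A F hF] at h1
  -- lower bound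
  have h2 : ∑ j, w j * (Real.exp (h * (A j).drift e - c * k * h ^ 2) / 2 ^ (A j).codim) ≤ 1 := by
    refine le_trans (Finset.sum_le_sum fun j _ => ?_) h1
    apply mul_le_mul_of_nonneg_left _ (hw j)
    refine le_trans ?_ (hlow j)
    apply div_le_div_of_nonneg_right _ (by positivity)
    apply Real.exp_le_exp.mpr
    have : ((A j).codim : ℝ) ≤ k := by exact_mod_cast hk j
    have h3 : c * (A j).codim * h ^ 2 ≤ c * k * h ^ 2 := by
      apply mul_le_mul_of_nonneg_right _ (by positivity)
      exact mul_le_mul_of_nonneg_left this hc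
    linarith
  have hqs := mean_sum w A F hF
  have hKs := coef_sum w A F hF e
  -- Jensen
  have hJ := jensen_exp Finset.univ (fun j => w j / 2 ^ (A j).codim / q)
    (fun j => h * (A j).drift e) (fun j _ => by have := hw j; positivity)
    (by rw [← Finset.sum_div, ← hqs, ← hqdef, div_self hq.ne'])
  have e1 : ∑ j, w j / 2 ^ (A j).codim / q * (h * (A j).drift e) = h * K / q := by
    rw [hK, hKs, Finset.mul_sum, Finset.sum_div]
    apply Finset.sum_congr rfl; intro j _; ring
  rw [e1] at hJ
  have e2 : ∑ j, w j * (Real.exp (h * (A j).drift e - c * k * h ^ 2) / 2 ^ (A j).codim) =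
      Real.exp (-(c * k * h ^ 2)) * q *
        ∑ j, w j / 2 ^ (A j).codim / q * Real.exp (h * (A j).drift e) := by
    rw [Finset.mul_sum]
    apply Finset.sum_congr rfl; intro j _
    rw [sub_eq_add_neg, Real.exp_add]
    field_simp
  rw [e2] at h2
  have h3 : Real.exp (-(c * k * h ^ 2)) * q * Real.exp (h * K / q) ≤ 1 :=
    le_trans (mul_le_mul_of_nonneg_left hJ (by positivity)) h2
  have h4 : -(c * k * h ^ 2) + Real.log q + h * K / q ≤ 0 := by
    have h5 : Real.exp (-(c * k * h ^ 2)) * q * Real.exp (h * K / q) =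
        Real.exp (-(c * k * h ^ 2) + Real.log q + h * K / q) := by
      rw [Real.exp_add, Real.exp_add, Real.exp_log hq]
    rw [h5] at h3
    have := Real.exp_le_one_iff.mp h3
    linarith
  rw [one_div, Real.log_inv]
  have h6 : h * K / q ≤ c * k * h ^ 2 - Real.log q := by linarith
  rw [div_le_iff₀ hq] at h6
  have h7 : K ≤ (c * k * h ^ 2 - Real.log q) * q / h := by
    rw [le_div_iff₀ hh]; linarith
  refine le_trans h7 (le_of_eq ?_)
  field_simp
  ring

/-- the sign vector of the first level -/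
noncomputable def sv {n : ℕ} (F : Cube n → ℝ) (i : Fin n) : ℝ := if 0 ≤ coef F i then 1 else -1

lemma sv_cases {n : ℕ} (F : Cube n → ℝ) (i : Fin n) : sv F i = 1 ∨ sv F i = -1 := by
  unfold sv; split_ifs <;> simp

lemma sum_abs_eq {n : ℕ} (F : Cube n → ℝ) : ∑ i, |coef F i| = ∑ i, sv F i * coef F i := by
  apply Finset.sum_congr rfl
  intro i _
  unfold sv
  split_ifs with h
  · rw [abs_of_nonneg h, one_mul]
  · push Not at h; rw [abs_of_neg h]; ring

/-- the two forms of the bound, given the tilt estimate -/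
lemma two_bounds {n k : ℕ} {ι : Type*} [Fintype ι] (c : ℝ) (hc : 0 < c)
    (w : ι → ℝ) (hw : ∀ j, 0 ≤ w j)
    (A : ι → Cert n) (hk : ∀ j, (A j).codim ≤ k) (F : Cube n → ℝ)
    (hF : ∀ x, F x = ∑ j, w j * (A j).ind x) (hF1 : ∀ x, F x ≤ 1)
    (hlow : ∀ h : ℝ, 0 ≤ h → ∀ e : Fin n → ℝ, (∀ i, e i = 1 ∨ e i = -1) → ∀ j,
      Real.exp (h * (A j).drift e - c * (A j).codim * h ^ 2) / 2 ^ (A j).codim ≤
      tiltP h e (A j).ind) :
    ∑ i, |coef F i| ≤ mean F * Real.sqrt (4 * c * k * Real.log (1 / mean F)) ∧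
    ∑ i, |coef F i| ≤ Real.sqrt (2 * c / Real.exp 1 * k) := by
  have hq0 : 0 ≤ mean F := by
    rw [mean_sum w A F hF]
    apply Finset.sum_nonneg; intro j _; have := hw j; positivity
  rcases hq0.eq_or_lt with hq | hq
  · -- degenerate case
    have hw0 : ∀ j, w j = 0 := by
      rw [mean_sum w A F hF] at hq
      have h1 := (Finset.sum_eq_zero_iff_of_nonneg (fun j _ => by
        have := hw j; positivity)).mp hq.symm
      intro j
      have h2 := h1 j (Finset.mem_univ _)
      rw [div_eq_zero_iff] at h2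
      rcases h2 with h2 | h2
      · exact h2
      · exact absurd h2 (by positivity)
    have hc0 : ∑ i, |coef F i| = 0 := by
      rw [sum_abs_eq, coef_sum w A F hF]
      apply Finset.sum_eq_zero; intro j _; rw [hw0 j]; simp
    rw [hc0]
    exact ⟨by positivity, Real.sqrt_nonneg _⟩
  have hmean1 : mean F ≤ 1 := by
    unfold mean
    rw [div_le_one (by positivity)]
    calc ∑ x, F x ≤ ∑ _x : Cube n, (1:ℝ) := Finset.sum_le_sum fun x _ => hF1 x
      _ = 2 ^ n := sum_one_cube n
  rw [sum_abs_eq]
  set K := ∑ i, sv F i * coef F i with hK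
  have hmain : ∀ h : ℝ, 0 < h →
      K ≤ mean F * (c * k * h) + mean F * Real.log (1 / mean F) / h := fun h hh =>
    key_tilt c hc.le h hh (sv F) (sv_cases F) w hw A hk F hF hF1
      (hlow h hh.le (sv F) (sv_cases F)) hq
  set q := mean F with hqdef
  have hL : 0 ≤ Real.log (1 / q) := by
    apply Real.log_nonneg; rw [le_div_iff₀ hq]; linarith
  rcases Nat.eq_zero_or_pos k with hk0 | hkpos
  · -- no determined coordinates: K ≤ 0
    subst hk0
    have hK0 : K ≤ 0 := by
      by_contra hcon
      push Not at hcon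
      have h1 := hmain ((q * Real.log (1 / q) + 1) / K) (by positivity)
      simp only [Nat.cast_zero, mul_zero, zero_mul, zero_add] at h1
      have h2 : q * Real.log (1 / q) / ((q * Real.log (1 / q) + 1) / K) < K := by
        rw [div_div_eq_mul_div, div_lt_iff₀ (by positivity)]
        nlinarith
      linarith
    exact ⟨le_trans hK0 (by positivity), le_trans hK0 (Real.sqrt_nonneg _)⟩
  have hkR : (0:ℝ) < k := by exact_mod_cast hkpos
  constructor
  · rcases hL.eq_or_lt with hL0 | hLpos
    · -- log = 0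
      have hK0 : K ≤ 0 := by
        by_contra hcon
        push Not at hcon
        have h1 := hmain (K / (2 * (q * (c * k)))) (by positivity)
        rw [← hL0] at h1
        have h2 : q * (c * k * (K / (2 * (q * (c * k))))) = K / 2 := by field_simp
        rw [h2] at h1
        simp at h1
        linarith
      exact le_trans hK0 (by positivity)
    · set L := Real.log (1 / q) with hLdef
      have hs : 0 < Real.sqrt (L / (c * k)) := Real.sqrt_pos.mpr (by positivity)
      have h1 := hmain (Real.sqrt (L / (c * k))) hs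
      have h2 : Real.sqrt (L / (c * k)) ^ 2 = L / (c * k) := Real.sq_sqrt (by positivity)
      have h3 : q * (c * k * Real.sqrt (L / (c * k))) + q * L / Real.sqrt (L / (c * k)) =
          q * (2 * (c * k) * Real.sqrt (L / (c * k))) := by
        field_simp
        rw [h2]; field_simp; ring
      rw [h3] at h1
      refine le_trans h1 (le_of_eq ?_)
      congr 1
      symm
      rw [Real.sqrt_eq_iff_mul_self_eq (by positivity) (by positivity)]
      have h4 : 2 * (c * k) * Real.sqrt (L / (c * k)) * (2 * (c * k) * Real.sqrt (L / (c * k))) =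
          4 * (c * k) ^ 2 * Real.sqrt (L / (c * k)) ^ 2 := by ring
      rw [h4, h2]; field_simp
  · -- universal bound
    set L := Real.log (1 / q) with hLdef
    set a := Real.sqrt (1 / (2 * c * k)) with ha
    have hapos : 0 < a := Real.sqrt_pos.mpr (by positivity)
    have ha2 : a ^ 2 = 1 / (2 * c * k) := Real.sq_sqrt (by positivity)
    have h1 := hmain a hapos
    have h2 : q * (c * k * a) + q * L / a = q * (1 / 2 + L) / a := by
      have : c * k * a = (1/2) / a := by
        rw [eq_div_iff hapos.ne']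
        have : c * k * a * a = c * k * a ^ 2 := by ring
        rw [this, ha2]; field_simp
      rw [this]; field_simp
    rw [h2] at h1
    have h3 : q * (1 / 2 + L) ≤ Real.exp (-(1/2)) := by
      have h4 : 1 / 2 + L ≤ Real.exp (L - 1 / 2) := by
        have := Real.add_one_le_exp (L - 1/2); linarith
      have h5 : q = Real.exp (-L) := by
        rw [hLdef, one_div, Real.log_inv, neg_neg, Real.exp_log hq]
      calc q * (1 / 2 + L) ≤ q * Real.exp (L - 1 / 2) := mul_le_mul_of_nonneg_left h4 hq.le
        _ = Real.exp (-(1/2)) := by rw [h5, ← Real.exp_add]; congr 1; ring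
    have h6 : K ≤ Real.exp (-(1/2)) / a := le_trans h1 (div_le_div_of_nonneg_right h3 hapos.le)
    refine le_trans h6 ?_
    apply Real.le_sqrt_of_sq_le
    rw [div_pow, ha2, ← Real.exp_nat_mul]
    have : Real.exp ((2:ℕ) * (-(1/2))) = 1 / Real.exp 1 := by
      rw [one_div (Real.exp 1), ← Real.exp_neg]; congr 1; norm_num
    rw [this]
    apply le_of_eq
    field_simp

end Vale.Agent.P047
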