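import Vale.Agent.P047.Cert

open Finset

namespace Vale.Agent.P047

/-- tilted weight of a bit -/
noncomputable def tw (h c : ℝ) (b : Bool) : ℝ := Real.exp (h * (c * sgn b)) / (2 * Real.cosh h)

lemma tw_pos (h c : ℝ) (b : Bool) : 0 < tw h c b := by
  unfold tw; have := Real.cosh_pos h; positivity

lemma tw_sum (h c : ℝ) (hc : c = 1 ∨ c = -1) : tw h c true + tw h c false = 1 := by
  unfold tw
  have := Real.cosh_pos h
  rw [Real.cosh_eq] at *
  rcases hc with rfl | rfl
  · simp only [sgn]; field_simp; norm_num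
  · simp only [sgn]; field_simp; norm_num; ring

lemma tw_diff (h c : ℝ) (hc : c = 1 ∨ c = -1) :
    tw h c true * sgn true + tw h c false * sgn false = c * Real.tanh h := by
  unfold tw
  have := Real.cosh_pos h
  rw [Real.tanh_eq_sinh_div_cosh, Real.cosh_eq, Real.sinh_eq] at *
  rcases hc with rfl | rfl
  · simp only [sgn]; field_simp; norm_num; ring_nf
  · simp only [sgn]; field_simp; norm_num; ring_nf

lemma tanh_le_self {h : ℝ} (hh : 0 ≤ h) : Real.tanh h ≤ h := by
  rw [Real.tanh_eq_sinh_div_cosh, div_le_iff₀ (Real.cosh_pos h)]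
  have hmono : MonotoneOn (fun x : ℝ => x * Real.cosh x - Real.sinh x) (Set.Ici 0) := by
    apply monotoneOn_of_deriv_nonneg (convex_Ici 0)
    · fun_prop
    · fun_prop
    · intro x hx
      rw [interior_Ici] at hx
      have hd : HasDerivAt (fun x : ℝ => x * Real.cosh x - Real.sinh x)
          (1 * Real.cosh x + x * Real.sinh x - Real.cosh x) x :=
        ((hasDerivAt_id x).mul (Real.hasDerivAt_cosh x)).sub (Real.hasDerivAt_sinh x)
      rw [hd.deriv]
      have h1 : 0 ≤ Real.sinh x := Real.sinh_nonneg_iff.mpr (le_of_lt hx)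
      have h2 : 0 ≤ x := le_of_lt hx
      nlinarith [mul_nonneg h2 h1]
  have h0 := hmono (Set.mem_Ici.mpr le_rfl) (Set.mem_Ici.mpr hh) hh
  simp only [zero_mul, Real.sinh_zero, sub_zero] at h0
  linarith

lemma tanh_nonneg' {h : ℝ} (hh : 0 ≤ h) : 0 ≤ Real.tanh h := by
  rw [Real.tanh_eq_sinh_div_cosh]
  exact div_nonneg (Real.sinh_nonneg_iff.mpr hh) (Real.cosh_pos h).le

lemma tanh_le_one' (h : ℝ) : Real.tanh h ≤ 1 := (Real.tanh_lt_one h).le

/-- finite Jensen inequality for `exp` -/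
lemma jensen_exp {ι : Type*} (s : Finset ι) (ν u : ι → ℝ) (hν : ∀ x ∈ s, 0 ≤ ν x)
    (h1 : ∑ x ∈ s, ν x = 1) :
    Real.exp (∑ x ∈ s, ν x * u x) ≤ ∑ x ∈ s, ν x * Real.exp (u x) := by
  set m := ∑ x ∈ s, ν x * u x with hm
  have key : ∀ x ∈ s, ν x * (Real.exp m * (1 + (u x - m))) ≤ ν x * Real.exp (u x) := by
    intro x hx
    apply mul_le_mul_of_nonneg_left _ (hν x hx)
    have h2 := Real.add_one_le_exp (u x - m)
    have h3 : Real.exp (u x) = Real.exp m * Real.exp (u x - m) := by
      rw [← Real.exp_add]; ring_nf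
    rw [h3]
    apply mul_le_mul_of_nonneg_left _ (Real.exp_pos m).le
    linarith
  have h4 := Finset.sum_le_sum key
  have h5 : ∑ x ∈ s, ν x * (Real.exp m * (1 + (u x - m))) = Real.exp m := by
    have : ∀ x ∈ s, ν x * (Real.exp m * (1 + (u x - m))) =
        Real.exp m * (1 - m) * ν x + Real.exp m * (ν x * u x) := by
      intro x _; ring
    rw [Finset.sum_congr rfl this, Finset.sum_add_distrib, ← Finset.mul_sum, ← Finset.mul_sum,
      h1, ← hm]
    ring
  linarith

/-- the free weight of a point -/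
noncomputable def freeW {n : ℕ} (A : Cert n) (h : ℝ) (e : Fin n → ℝ) (x : Cube n) : ℝ :=
  ∏ i, (if i ∈ A.dep then 1 else tw h (e i) (x i))

lemma freeW_flip {n : ℕ} (A : Cert n) (h : ℝ) (e : Fin n → ℝ) (j : Fin n) (hj : j ∈ A.dep)
    (x : Cube n) : freeW A h e (flip j x) = freeW A h e x := by
  unfold freeW
  apply Finset.prod_congr rfl
  intro i _
  split_ifs with hi
  · rfl
  · have : i ≠ j := by rintro rfl; exact hi hj
    rw [flip_ne this]

lemma freeW_pos {n : ℕ} (A : Cert n) (h : ℝ) (e : Fin n → ℝ) (x : Cube n) :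
    0 < freeW A h e x := by
  unfold freeW
  apply Finset.prod_pos
  intro i _
  split_ifs
  · norm_num
  · exact tw_pos _ _ _

lemma ind_nonneg {n : ℕ} (A : Cert n) (x : Cube n) : 0 ≤ A.ind x := by
  unfold Cert.ind; split_ifs <;> norm_num

lemma sum_freeW {n : ℕ} (A : Cert n) (h : ℝ) (e : Fin n → ℝ) (he : ∀ i, e i = 1 ∨ e i = -1)
    (T : Finset (Fin n)) (hT : Disjoint T A.dep) :
    ∑ x, freeW A h e x * ∏ i ∈ T, sgn (x i) = 2 ^ A.codim * ∏ i ∈ T, (e i * Real.tanh h) := by
  classical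
  have h1 : ∀ x : Cube n, freeW A h e x * ∏ i ∈ T, sgn (x i) =
      ∏ i, ((if i ∈ A.dep then 1 else tw h (e i) (x i)) * (if i ∈ T then sgn (x i) else 1)) := by
    intro x
    rw [Finset.prod_mul_distrib]
    unfold freeW
    congr 1
    rw [Finset.prod_ite_mem, Finset.univ_inter]
  rw [Finset.sum_congr rfl (fun x _ => h1 x)]
  have h2 := sum_prod_cube (n := n) (fun i b =>
    (if i ∈ A.dep then 1 else tw h (e i) b) * (if i ∈ T then sgn b else 1))
  rw [h2]
  have h3 : ∀ i : Fin n, ((if i ∈ A.dep then 1 else tw h (e i) true) * (if i ∈ T then sgn true else 1)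
      + (if i ∈ A.dep then 1 else tw h (e i) false) * (if i ∈ T then sgn false else 1)) =
      (if i ∈ A.dep then 2 else 1) * (if i ∈ T then e i * Real.tanh h else 1) := by
    intro i
    by_cases hi : i ∈ A.dep
    · have hiT : i ∉ T := fun h' => (Finset.disjoint_left.mp hT h') hi
      simp [hi, hiT]; norm_num
    · by_cases hiT : i ∈ T
      · simp only [hi, hiT, if_true, if_false, one_mul]
        exact tw_diff h (e i) (he i)
      · simp only [hi, hiT, if_false, mul_one]
        exact tw_sum h (e i) (he i)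
  rw [Finset.prod_congr rfl (fun i _ => h3 i), Finset.prod_mul_distrib]
  congr 1
  · rw [Finset.prod_ite_mem, Finset.univ_inter, Finset.prod_const, Cert.codim]
  · rw [Finset.prod_ite_mem, Finset.univ_inter]

/-- the tilted probability of a certificate -/
noncomputable def tiltP {n : ℕ} (h : ℝ) (e : Fin n → ℝ) (F : Cube n → ℝ) : ℝ :=
  ∑ x, F x * ∏ i, tw h (e i) (x i)

lemma tiltP_le_one {n : ℕ} (h : ℝ) (e : Fin n → ℝ) (he : ∀ i, e i = 1 ∨ e i = -1)
    (F : Cube n → ℝ) (hF : ∀ x, F x ≤ 1) : tiltP h e F ≤ 1 := by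
  unfold tiltP
  have h1 : ∑ x : Cube n, ∏ i, tw h (e i) (x i) = 1 := by
    rw [sum_prod_cube (fun i b => tw h (e i) b)]
    apply Finset.prod_eq_one
    intro i _
    exact tw_sum h (e i) (he i)
  calc ∑ x, F x * ∏ i, tw h (e i) (x i) ≤ ∑ x : Cube n, 1 * ∏ i, tw h (e i) (x i) := by
        apply Finset.sum_le_sum
        intro x _
        apply mul_le_mul_of_nonneg_right (hF x)
        exact Finset.prod_nonneg (fun i _ => (tw_pos _ _ _).le)
    _ = 1 := by simp only [one_mul]; exact h1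

/-- the expected sign of a determined coordinate under the free tilt -/
noncomputable def expSgn {n : ℕ} (A : Cert n) (h : ℝ) (e : Fin n → ℝ) (j : Fin n) : ℝ :=
  e j * (sgn (A.val j) * ∏ i ∈ A.par j, (e i * Real.tanh h))

lemma tiltP_ind_lower {n : ℕ} (A : Cert n) (h : ℝ) (e : Fin n → ℝ)
    (he : ∀ i, e i = 1 ∨ e i = -1) :
    Real.exp (h * ∑ j ∈ A.dep, expSgn A h e j) / (2 * Real.cosh h) ^ A.codim ≤
      tiltP h e A.ind := by
  classical
  have hc := Real.cosh_pos h
  -- the free measure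
  set ν : Cube n → ℝ := fun x => A.ind x * freeW A h e x with hν
  have hν0 : ∀ x ∈ (Finset.univ : Finset (Cube n)), 0 ≤ ν x := fun x _ =>
    mul_nonneg (ind_nonneg A x) (freeW_pos A h e x).le
  have hν1 : ∑ x, ν x = 1 := by
    rw [hν]
    rw [sum_ind_mul A (freeW A h e) (fun j hj x => freeW_flip A h e j hj x)]
    have := sum_freeW A h e he ∅ (Finset.disjoint_empty_left _)
    simp only [Finset.prod_empty, mul_one] at this
    rw [this]; field_simp
  -- expectation of the sign of a determined coordinate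
  have hsg : ∀ j ∈ A.dep, ∑ x, ν x * sgn (x j) =
      sgn (A.val j) * ∏ i ∈ A.par j, (e i * Real.tanh h) := by
    intro j hj
    have h1 : ∀ x, ν x * sgn (x j) =
        A.ind x * (sgn (A.val j) * (freeW A h e x * ∏ i ∈ A.par j, sgn (x i))) := by
      intro x
      simp only [hν]
      unfold Cert.ind
      split_ifs with hh
      · rw [hh j hj]; ring
      · simp
    rw [Finset.sum_congr rfl (fun x _ => h1 x)]
    rw [sum_ind_mul A]
    · rw [← Finset.mul_sum, sum_freeW A h e he (A.par j) (A.disj j hj)]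
      have hpow : (2:ℝ) ^ A.codim ≠ 0 := by positivity
      rw [mul_comm ((2:ℝ) ^ A.codim), ← mul_assoc, mul_div_assoc, div_self hpow, mul_one]
    · intro l hl x
      rw [freeW_flip A h e l hl]
      congr 2
      apply Finset.prod_congr rfl
      intro i hi
      have : i ≠ l := by rintro rfl; exact (Finset.disjoint_left.mp (A.disj j hj) hi) hl
      rw [flip_ne this]
  -- split the weight
  have hsplit : ∀ x : Cube n, ∏ i, tw h (e i) (x i) =
      freeW A h e x * (Real.exp (h * ∑ j ∈ A.dep, e j * sgn (x j)) / (2 * Real.cosh h) ^ A.codim) := by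
    intro x
    have h1 : ∀ i : Fin n, tw h (e i) (x i) =
        (if i ∈ A.dep then 1 else tw h (e i) (x i)) * (if i ∈ A.dep then tw h (e i) (x i) else 1) := by
      intro i; split_ifs <;> ring
    rw [Finset.prod_congr rfl (fun i _ => h1 i), Finset.prod_mul_distrib]
    unfold freeW
    congr 1
    rw [Finset.prod_ite_mem, Finset.univ_inter]
    unfold tw
    rw [Finset.prod_div_distrib, Finset.prod_const, ← Real.exp_sum, Finset.mul_sum, Cert.codim]
  have hP : tiltP h e A.ind = (∑ x, ν x * Real.exp (h * ∑ j ∈ A.dep, e j * sgn (x j))) /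
      (2 * Real.cosh h) ^ A.codim := by
    unfold tiltP
    rw [Finset.sum_div]
    apply Finset.sum_congr rfl
    intro x _
    rw [hsplit x]; simp only [hν]; ring
  rw [hP]
  apply div_le_div_of_nonneg_right _ (by positivity)
  have hJ := jensen_exp Finset.univ ν (fun x => h * ∑ j ∈ A.dep, e j * sgn (x j)) hν0 hν1
  refine le_trans (le_of_eq ?_) hJ
  congr 1
  have : ∑ x, ν x * (h * ∑ j ∈ A.dep, e j * sgn (x j)) =
      h * ∑ j ∈ A.dep, e j * ∑ x, ν x * sgn (x j) := by
    have e1 : ∀ x, ν x * (h * ∑ j ∈ A.dep, e j * sgn (x j)) =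
        ∑ j ∈ A.dep, h * (e j * (ν x * sgn (x j))) := by
      intro x
      rw [Finset.mul_sum, Finset.mul_sum]
      apply Finset.sum_congr rfl; intro j _; ring
    rw [Finset.sum_congr rfl (fun x _ => e1 x), Finset.sum_comm, Finset.mul_sum]
    apply Finset.sum_congr rfl
    intro j _
    rw [Finset.mul_sum, Finset.mul_sum]
  rw [this]
  congr 1
  apply Finset.sum_congr rfl
  intro j hj
  rw [hsg j hj]; rfl

lemma cosh_pow_le {k : ℕ} (h : ℝ) : (2 * Real.cosh h) ^ k ≤ 2 ^ k * Real.exp (k * h ^ 2 / 2) := by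
  rw [mul_pow]
  apply mul_le_mul_of_nonneg_left _ (by positivity)
  calc Real.cosh h ^ k ≤ (Real.exp (h ^ 2 / 2)) ^ k :=
        pow_le_pow_left₀ (Real.cosh_pos h).le (Real.cosh_le_exp_half_sq h) k
    _ = Real.exp (k * h ^ 2 / 2) := by rw [← Real.exp_nat_mul]; congr 1; ring

/-- subcubes: sharp exponent -/
lemma tiltP_subcube {n : ℕ} (A : Cert n) (hA : A.IsSubcube) (h : ℝ) (e : Fin n → ℝ)
    (he : ∀ i, e i = 1 ∨ e i = -1) :
    Real.exp (h * A.drift e - (1/2) * A.codim * h ^ 2) / 2 ^ A.codim ≤ tiltP h e A.ind := by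
  refine le_trans ?_ (tiltP_ind_lower A h e he)
  have h1 : ∑ j ∈ A.dep, expSgn A h e j = A.drift e := by
    unfold Cert.drift
    apply Finset.sum_congr rfl
    intro j hj
    unfold expSgn
    rw [hA j hj]; simp
  rw [h1]
  have hc := Real.cosh_pos h
  rw [div_le_div_iff₀ (by positivity) (by positivity)]
  calc Real.exp (h * A.drift e - (1/2) * A.codim * h ^ 2) * (2 * Real.cosh h) ^ A.codim
      ≤ Real.exp (h * A.drift e - (1/2) * A.codim * h ^ 2) *
        (2 ^ A.codim * Real.exp (A.codim * h ^ 2 / 2)) :=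
        mul_le_mul_of_nonneg_left (cosh_pow_le h) (Real.exp_pos _).le
    _ = Real.exp (h * A.drift e) * 2 ^ A.codim := by
        rw [mul_comm ((2:ℝ) ^ A.codim), ← mul_assoc, ← Real.exp_add]; congr 2; ring

lemma abs_prod_tanh_le {n : ℕ} (T : Finset (Fin n)) (hT : T ≠ ∅) (h : ℝ) (hh : 0 ≤ h)
    (e : Fin n → ℝ) (he : ∀ i, e i = 1 ∨ e i = -1) :
    |∏ i ∈ T, (e i * Real.tanh h)| ≤ h := by
  rw [Finset.abs_prod]
  have h1 : ∀ i ∈ T, |e i * Real.tanh h| = Real.tanh h := by
    intro i _
    rw [abs_mul, abs_of_nonneg (tanh_nonneg' hh)]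
    rcases he i with h' | h' <;> simp [h']
  rw [Finset.prod_congr rfl h1, Finset.prod_const]
  have hcard : T.card ≠ 0 := by rwa [Ne, Finset.card_eq_zero]
  calc Real.tanh h ^ T.card ≤ Real.tanh h ^ 1 :=
        pow_le_pow_of_le_one (tanh_nonneg' hh) (tanh_le_one' h) (Nat.one_le_iff_ne_zero.mpr hcard)
    _ = Real.tanh h := pow_one _
    _ ≤ h := tanh_le_self hh

/-- parity certificates -/
lemma tiltP_parity {n : ℕ} (A : Cert n) (h : ℝ) (hh : 0 ≤ h) (e : Fin n → ℝ)
    (he : ∀ i, e i = 1 ∨ e i = -1) :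
    Real.exp (h * A.drift e - (3/2) * A.codim * h ^ 2) / 2 ^ A.codim ≤ tiltP h e A.ind := by
  refine le_trans ?_ (tiltP_ind_lower A h e he)
  have h1 : A.drift e - A.codim * h ≤ ∑ j ∈ A.dep, expSgn A h e j := by
    unfold Cert.drift Cert.codim
    rw [← nsmul_eq_mul, ← Finset.sum_const, ← Finset.sum_sub_distrib]
    apply Finset.sum_le_sum
    intro j hj
    unfold expSgn
    split_ifs with hp
    · rw [hp]; simp; exact hh
    · have h2 := abs_prod_tanh_le (A.par j) hp h hh e he
      have h3 : |e j * (sgn (A.val j) * ∏ i ∈ A.par j, (e i * Real.tanh h))| ≤ h := by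
        rw [abs_mul, abs_mul, abs_sgn]
        have : |e j| = 1 := by rcases he j with h' | h' <;> simp [h']
        rw [this]; simpa using h2
      have := (abs_le.mp h3).1
      linarith
  have hc := Real.cosh_pos h
  have h2 : h * A.drift e - A.codim * h ^ 2 ≤ h * ∑ j ∈ A.dep, expSgn A h e j := by
    nlinarith [mul_le_mul_of_nonneg_left h1 hh]
  rw [div_le_div_iff₀ (by positivity) (by positivity)]
  calc Real.exp (h * A.drift e - (3/2) * A.codim * h ^ 2) * (2 * Real.cosh h) ^ A.codim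
      ≤ Real.exp (h * A.drift e - (3/2) * A.codim * h ^ 2) *
        (2 ^ A.codim * Real.exp (A.codim * h ^ 2 / 2)) :=
        mul_le_mul_of_nonneg_left (cosh_pow_le h) (Real.exp_pos _).le
    _ = Real.exp (h * A.drift e - A.codim * h ^ 2) * 2 ^ A.codim := by
        rw [mul_comm ((2:ℝ) ^ A.codim), ← mul_assoc, ← Real.exp_add]; congr 2; ring
    _ ≤ Real.exp (h * ∑ j ∈ A.dep, expSgn A h e j) * 2 ^ A.codim := by
        apply mul_le_mul_of_nonneg_right _ (by positivity)
        exact Real.exp_le_exp.mpr h2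

end Vale.Agent.P047
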