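import Vale.Agent.P047.Main

open Finset

namespace Vale.Agent.P047

lemma sum_lin {n : ℕ} (T : Finset (Fin n)) (e : Fin n → ℝ) :
    ∑ x : Cube n, ∑ i ∈ T, e i * sgn (x i) = 0 := by
  rw [Finset.sum_comm]
  apply Finset.sum_eq_zero
  intro i _
  rw [← Finset.mul_sum]
  have : ∑ x : Cube n, sgn (x i) = 0 := by
    apply sum_eq_zero_of_flip i
    intro x; rw [flip_self]
  rw [this, mul_zero]

lemma lin_flip {n : ℕ} (T : Finset (Fin n)) (e : Fin n → ℝ) (j : Fin n) (hj : j ∉ T) (x : Cube n) :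
    ∑ i ∈ T, e i * sgn (flip j x i) = ∑ i ∈ T, e i * sgn (x i) := by
  apply Finset.sum_congr rfl
  intro i hi
  have : i ≠ j := by rintro rfl; exact hj hi
  rw [flip_ne this]

lemma sum_sq {n : ℕ} (T : Finset (Fin n)) (e : Fin n → ℝ) (he : ∀ i, e i = 1 ∨ e i = -1) :
    ∑ x : Cube n, (∑ i ∈ T, e i * sgn (x i)) ^ 2 = 2 ^ n * T.card := by
  induction T using Finset.induction_on with
  | empty => simp
  | insert a s ha ih =>
    have h0 : ∑ x : Cube n, (∑ i ∈ s, e i * sgn (x i)) * sgn (x a) = 0 := by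
      apply sum_eq_zero_of_flip a
      intro x
      rw [lin_flip s e a ha, flip_self]; ring
    have h1 : ∀ x : Cube n, (∑ i ∈ insert a s, e i * sgn (x i)) ^ 2 =
        (∑ i ∈ s, e i * sgn (x i)) ^ 2 + 2 * e a * ((∑ i ∈ s, e i * sgn (x i)) * sgn (x a)) + 1 := by
      intro x
      rw [Finset.sum_insert ha]
      have h2 : e a ^ 2 = 1 := by rcases he a with h | h <;> rw [h] <;> norm_num
      have h3 := sgn_sq (x a)
      have : (e a * sgn (x a)) ^ 2 = 1 := by rw [mul_pow, h2, h3, one_mul]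
      nlinarith [this]
    rw [Finset.sum_congr rfl (fun x _ => h1 x), Finset.sum_add_distrib, Finset.sum_add_distrib,
      ← Finset.mul_sum, h0, ih, Finset.card_insert_of_notMem ha, sum_one_cube]
    push_cast; ring

lemma sum_ind_sq {n : ℕ} (A : Cert n) (hA : A.IsSubcube) (e : Fin n → ℝ)
    (he : ∀ i, e i = 1 ∨ e i = -1) :
    ∑ x : Cube n, A.ind x * (∑ i, e i * sgn (x i)) ^ 2 =
      2 ^ n / 2 ^ A.codim * (A.drift e ^ 2 + (n - A.codim)) := by
  classical
  have h1 : ∀ x : Cube n, A.ind x * (∑ i, e i * sgn (x i)) ^ 2 =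
      A.ind x * (A.drift e + ∑ i ∈ A.depᶜ, e i * sgn (x i)) ^ 2 := by
    intro x
    unfold Cert.ind
    split_ifs with h
    · congr 2
      rw [← Finset.sum_add_sum_compl A.dep]
      congr 1
      unfold Cert.drift
      apply Finset.sum_congr rfl
      intro j hj
      rw [if_pos (hA j hj), h j hj, hA j hj]; simp
    · simp
  rw [Finset.sum_congr rfl (fun x _ => h1 x), sum_ind_mul]
  · have h2 : ∀ x : Cube n, (A.drift e + ∑ i ∈ A.depᶜ, e i * sgn (x i)) ^ 2 =
        A.drift e ^ 2 + 2 * A.drift e * (∑ i ∈ A.depᶜ, e i * sgn (x i)) +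
          (∑ i ∈ A.depᶜ, e i * sgn (x i)) ^ 2 := by intro x; ring
    rw [Finset.sum_congr rfl (fun x _ => h2 x), Finset.sum_add_distrib, Finset.sum_add_distrib,
      ← Finset.mul_sum, sum_lin, sum_sq _ e he]
    have h3 : ∑ _x : Cube n, A.drift e ^ 2 = 2 ^ n * A.drift e ^ 2 := by
      simp
    rw [h3, Finset.card_compl, Fintype.card_fin, Nat.cast_sub (by
      have := Finset.card_le_univ A.dep; simpa using this)]
    unfold Cert.codim
    ring
  · intro j hj x
    rw [lin_flip]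
    simpa using hj

/-- the two-sided bound with the average codimension -/
theorem two_sided {n : ℕ} {ι : Type*} [Fintype ι] (w v : ι → ℝ) (hw : ∀ j, 0 ≤ w j)
    (hv : ∀ j, |v j| ≤ 1) (A : ι → Cert n) (hA : ∀ j, (A j).IsSubcube) (f : Cube n → ℝ)
    (h1 : ∀ x, ∑ j, w j * (A j).ind x = 1)
    (hf : ∀ j x, (A j).Holds x → f x = v j) :
    ∑ i, |coef f i| ≤ Real.sqrt (∑ j, w j / 2 ^ (A j).codim * (A j).codim) := by
  classical
  have hfe : ∀ x, f x = ∑ j, (w j * v j) * (A j).ind x := by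
    intro x
    have : f x = ∑ j, w j * (A j).ind x * f x := by
      rw [← Finset.sum_mul, h1 x, one_mul]
    rw [this]
    apply Finset.sum_congr rfl
    intro j _
    unfold Cert.ind
    split_ifs with h
    · rw [hf j x h]; ring
    · simp
  rw [sum_abs_eq, coef_sum (fun j => w j * v j) A f hfe]
  set e := sv f with he
  have hecase := sv_cases f
  -- total mass
  have hm : ∑ j, w j / 2 ^ (A j).codim = 1 := by
    have := mean_sum w A (fun _ => (1:ℝ)) (fun x => (h1 x).symm)
    rw [← this]; unfold mean; rw [sum_one_cube]; field_simp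
  have hp : ∀ j, 0 ≤ w j / 2 ^ (A j).codim := fun j => by have := hw j; positivity
  -- second moment
  have hsec : ∑ j, w j / 2 ^ (A j).codim * (A j).drift e ^ 2 =
      ∑ j, w j / 2 ^ (A j).codim * (A j).codim := by
    have h2 : ∑ j, w j * ∑ x : Cube n, (A j).ind x * (∑ i, e i * sgn (x i)) ^ 2 = 2 ^ n * n := by
      have h3 : ∑ j, w j * ∑ x : Cube n, (A j).ind x * (∑ i, e i * sgn (x i)) ^ 2 =
          ∑ x : Cube n, (∑ i, e i * sgn (x i)) ^ 2 := by
        simp_rw [Finset.mul_sum]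
        rw [Finset.sum_comm]
        apply Finset.sum_congr rfl
        intro x _
        calc ∑ j, w j * ((A j).ind x * (∑ i, e i * sgn (x i)) ^ 2)
            = (∑ j, w j * (A j).ind x) * (∑ i, e i * sgn (x i)) ^ 2 := by
              rw [Finset.sum_mul]; apply Finset.sum_congr rfl; intro j _; ring
          _ = _ := by rw [h1 x, one_mul]
      rw [h3, sum_sq Finset.univ e hecase, Finset.card_univ, Fintype.card_fin]
    have h4 : ∀ j, w j * ∑ x : Cube n, (A j).ind x * (∑ i, e i * sgn (x i)) ^ 2 =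
        2 ^ n * (w j / 2 ^ (A j).codim * (A j).drift e ^ 2) +
        2 ^ n * n * (w j / 2 ^ (A j).codim) - 2 ^ n * (w j / 2 ^ (A j).codim * (A j).codim) := by
      intro j
      rw [sum_ind_sq (A j) (hA j) e hecase]; ring
    rw [Finset.sum_congr rfl (fun j _ => h4 j), Finset.sum_sub_distrib, Finset.sum_add_distrib,
      ← Finset.mul_sum, ← Finset.mul_sum, ← Finset.mul_sum, hm] at h2
    have h5 : (2:ℝ) ^ n * (∑ j, w j / 2 ^ (A j).codim * (A j).drift e ^ 2) =
        2 ^ n * (∑ j, w j / 2 ^ (A j).codim * (A j).codim) := by linarith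
    exact mul_left_cancel₀ (by positivity) h5
  apply Real.le_sqrt_of_sq_le
  rw [← hsec]
  -- Cauchy-Schwarz
  have hcs := Finset.sum_mul_sq_le_sq_mul_sq Finset.univ
    (fun j => Real.sqrt (w j / 2 ^ (A j).codim))
    (fun j => Real.sqrt (w j / 2 ^ (A j).codim) * (v j * (A j).drift e))
  have e1 : ∑ j, Real.sqrt (w j / 2 ^ (A j).codim) *
      (Real.sqrt (w j / 2 ^ (A j).codim) * (v j * (A j).drift e)) =
      ∑ j, w j * v j * (A j).drift e / 2 ^ (A j).codim := by
    apply Finset.sum_congr rfl; intro j _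
    rw [← mul_assoc, Real.mul_self_sqrt (hp j)]; ring
  have e2 : ∑ j, Real.sqrt (w j / 2 ^ (A j).codim) ^ 2 = 1 := by
    rw [← hm]; apply Finset.sum_congr rfl; intro j _; exact Real.sq_sqrt (hp j)
  rw [e1, e2, one_mul] at hcs
  refine le_trans hcs (Finset.sum_le_sum fun j _ => ?_)
  rw [mul_pow, Real.sq_sqrt (hp j)]
  apply mul_le_mul_of_nonneg_left _ (hp j)
  rw [mul_pow]
  have : v j ^ 2 ≤ 1 := by rw [← sq_abs]; exact pow_le_one₀ (abs_nonneg _) (hv j)
  nlinarith [sq_nonneg ((A j).drift e)]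

end Vale.Agent.P047
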